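import Mathlib
import Vale.Agent.Lib.P090.Defs

/-!
# P090, piece D: the map between Lipschitz-free spaces induced by a Lipschitz map

A `K`-Lipschitz map `φ : M → N` induces the bounded operator `f ↦ f ∘ φ - f (φ o)` from
`Lip0 N o'` to `Lip0 M o` (`comp0`), whose adjoint maps the evaluation functional at `x` to the
difference of the evaluation functionals at `φ x` and `φ o`; hence the adjoint restricts to a
bounded operator `freeMap φ : free M o → free N o'` of norm at most `K`.  For a Lipschitz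
retraction `ρ ∘ ι = id` the induced maps satisfy `freeMap ρ ∘ freeMap ι = id`.
-/

namespace Vale.Agent.Lib.P090.H4

open Vale.Agent.Lib.P090

open scoped NNReal ENNReal

universe u

variable {M N : Type u} [MetricSpace M] [MetricSpace N]

/-- The function `x ↦ f (φ x) - f (φ o)` is Lipschitz. -/
theorem lip_comp (φ : M → N) (K : ℝ≥0) (hφ : LipschitzWith K φ) (o : M) (o' : N)
    (f : Lip0 N o') : LipschitzWith (‖f‖₊ * K) (fun x => f.fn (φ x) - f.fn (φ o)) := by
  refine LipschitzWith.of_dist_le_mul fun x y => ?_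
  rw [Real.dist_eq, NNReal.coe_mul, coe_nnnorm]
  have h1 : f.fn (φ x) - f.fn (φ o) - (f.fn (φ y) - f.fn (φ o)) = f.fn (φ x) - f.fn (φ y) := by
    ring
  rw [h1]
  calc |f.fn (φ x) - f.fn (φ y)| ≤ ‖f‖ * dist (φ x) (φ y) := lip0_abs_sub_le f _ _
    _ ≤ ‖f‖ * (K * dist x y) := mul_le_mul_of_nonneg_left (hφ.dist_le_mul x y) (norm_nonneg f)
    _ = ‖f‖ * K * dist x y := by ring

/-- Composition with a Lipschitz map, corrected to vanish at the base point, as a linear map. -/
noncomputable def comp0Lin (φ : M → N) (K : ℝ≥0) (hφ : LipschitzWith K φ) (o : M) (o' : N) :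
    Lip0 N o' →ₗ[ℝ] Lip0 M o where
  toFun f := Lip0.mk (fun x => f.fn (φ x) - f.fn (φ o)) (sub_self _) (‖f‖₊ * K)
    (lip_comp φ K hφ o o' f)
  map_add' f g := by
    apply Lip0.ext
    intro x
    simp only [Lip0.mk_fn, Lip0.fn_add]
    ring
  map_smul' c f := by
    apply Lip0.ext
    intro x
    simp only [Lip0.mk_fn, Lip0.fn_smul, RingHom.id_apply]
    ring

theorem comp0Lin_fn (φ : M → N) (K : ℝ≥0) (hφ : LipschitzWith K φ) (o : M) (o' : N)
    (f : Lip0 N o') (x : M) : (comp0Lin φ K hφ o o' f).fn x = f.fn (φ x) - f.fn (φ o) := rfl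

theorem comp0Lin_bound (φ : M → N) (K : ℝ≥0) (hφ : LipschitzWith K φ) (o : M) (o' : N)
    (f : Lip0 N o') : ‖comp0Lin φ K hφ o o' f‖ ≤ K * ‖f‖ := by
  refine lip0_norm_le _ (K * ‖f‖) (mul_nonneg K.2 (norm_nonneg f)) (fun x y => ?_)
  rw [comp0Lin_fn, comp0Lin_fn]
  have h := (lip_comp φ K hφ o o' f).dist_le_mul x y
  rw [Real.dist_eq, NNReal.coe_mul, coe_nnnorm] at h
  calc |f.fn (φ x) - f.fn (φ o) - (f.fn (φ y) - f.fn (φ o))| ≤ ‖f‖ * K * dist x y := h
    _ = K * ‖f‖ * dist x y := by ring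

/-- Composition with a Lipschitz map, corrected to vanish at the base point, as a bounded
operator `Lip0 N o' → Lip0 M o`. -/
noncomputable def comp0 (φ : M → N) (K : ℝ≥0) (hφ : LipschitzWith K φ) (o : M) (o' : N) :
    Lip0 N o' →L[ℝ] Lip0 M o :=
  LinearMap.mkContinuous (comp0Lin φ K hφ o o') K (comp0Lin_bound φ K hφ o o')

theorem comp0_fn (φ : M → N) (K : ℝ≥0) (hφ : LipschitzWith K φ) (o : M) (o' : N)
    (f : Lip0 N o') (x : M) : (comp0 φ K hφ o o' f).fn x = f.fn (φ x) - f.fn (φ o) := rfl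

theorem norm_comp0_le (φ : M → N) (K : ℝ≥0) (hφ : LipschitzWith K φ) (o : M) (o' : N) :
    ‖comp0 φ K hφ o o'‖ ≤ K :=
  LinearMap.mkContinuous_norm_le _ K.2 _

/-- The adjoint of `comp0` on the duals. -/
noncomputable def adj (φ : M → N) (K : ℝ≥0) (hφ : LipschitzWith K φ) (o : M) (o' : N) :
    (Lip0 M o →L[ℝ] ℝ) →L[ℝ] (Lip0 N o' →L[ℝ] ℝ) :=
  (ContinuousLinearMap.compL ℝ (Lip0 N o') (Lip0 M o) ℝ).flip (comp0 φ K hφ o o')

theorem adj_apply (φ : M → N) (K : ℝ≥0) (hφ : LipschitzWith K φ) (o : M) (o' : N)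
    (g : Lip0 M o →L[ℝ] ℝ) (f : Lip0 N o') :
    adj φ K hφ o o' g f = g (comp0 φ K hφ o o' f) := rfl

theorem adj_delta (φ : M → N) (K : ℝ≥0) (hφ : LipschitzWith K φ) (o : M) (o' : N) (x : M) :
    adj φ K hφ o o' (delta M o x) = delta N o' (φ x) - delta N o' (φ o) := by
  ext f
  rw [adj_apply, delta_apply, comp0_fn]
  rfl

theorem adj_mem_free (φ : M → N) (K : ℝ≥0) (hφ : LipschitzWith K φ) (o : M) (o' : N)
    (g : Lip0 M o →L[ℝ] ℝ) (hg : g ∈ free M o) : adj φ K hφ o o' g ∈ free N o' := by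
  have hmaps : Set.MapsTo (adj φ K hφ o o')
      (Submodule.span ℝ (Set.range (delta M o)) : Set (Lip0 M o →L[ℝ] ℝ))
      (Submodule.span ℝ (Set.range (delta N o')) : Set (Lip0 N o' →L[ℝ] ℝ)) := by
    intro g hg
    have hle : Submodule.map (adj φ K hφ o o' : (Lip0 M o →L[ℝ] ℝ) →ₗ[ℝ] (Lip0 N o' →L[ℝ] ℝ))
        (Submodule.span ℝ (Set.range (delta M o)))
        ≤ Submodule.span ℝ (Set.range (delta N o')) := by
      rw [Submodule.map_span_le]
      rintro _ ⟨x, rfl⟩
      show adj φ K hφ o o' (delta M o x) ∈ Submodule.span ℝ (Set.range (delta N o'))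
      rw [adj_delta]
      exact Submodule.sub_mem _ (Submodule.subset_span ⟨φ x, rfl⟩)
        (Submodule.subset_span ⟨φ o, rfl⟩)
    exact hle (Submodule.mem_map_of_mem hg)
  exact map_mem_closure (adj φ K hφ o o').continuous hg hmaps

/-- Shortcut to the norm structure that `free M o` carries as a subspace of the dual of
`Lip0 M o` (the same structure that instance search finds on its own; stated here so that the
operator norm between two free spaces is found). -/
noncomputable instance instSeminormedAddCommGroupFree (o : M) :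
    SeminormedAddCommGroup (free M o) := inferInstance

/-- Shortcut to the normed space structure of `free M o` (see
`instSeminormedAddCommGroupFree`). -/
noncomputable instance instNormedSpaceFree (o : M) : NormedSpace ℝ (free M o) := inferInstance

/-- The bounded operator between the Lipschitz-free spaces induced by a Lipschitz map. -/
noncomputable def freeMap (φ : M → N) (K : ℝ≥0) (hφ : LipschitzWith K φ) (o : M) (o' : N) :
    free M o →L[ℝ] free N o' :=
  ((adj φ K hφ o o').comp (free M o).subtypeL).codRestrict (free N o')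
    (fun g => adj_mem_free φ K hφ o o' g.1 g.2)

theorem freeMap_coe (φ : M → N) (K : ℝ≥0) (hφ : LipschitzWith K φ) (o : M) (o' : N)
    (y : free M o) :
    (freeMap φ K hφ o o' y : Lip0 N o' →L[ℝ] ℝ) = adj φ K hφ o o' (y : Lip0 M o →L[ℝ] ℝ) := rfl

theorem norm_freeMap_le (φ : M → N) (K : ℝ≥0) (hφ : LipschitzWith K φ) (o : M) (o' : N) :
    ‖freeMap φ K hφ o o'‖ ≤ K := by
  refine ContinuousLinearMap.opNorm_le_bound _ K.2 (fun y => ?_)
  rw [Submodule.coe_norm, freeMap_coe]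
  have h1 : adj φ K hφ o o' (y : Lip0 M o →L[ℝ] ℝ)
      = (y : Lip0 M o →L[ℝ] ℝ).comp (comp0 φ K hφ o o') := rfl
  rw [h1]
  calc ‖(y : Lip0 M o →L[ℝ] ℝ).comp (comp0 φ K hφ o o')‖
      ≤ ‖(y : Lip0 M o →L[ℝ] ℝ)‖ * ‖comp0 φ K hφ o o'‖ := ContinuousLinearMap.opNorm_comp_le _ _
    _ ≤ ‖(y : Lip0 M o →L[ℝ] ℝ)‖ * K :=
        mul_le_mul_of_nonneg_left (norm_comp0_le φ K hφ o o') (norm_nonneg _)
    _ = K * ‖y‖ := by rw [Submodule.coe_norm, mul_comm]

theorem comp0_retract (ι : N → M) (ρ : M → N) (A B : ℝ≥0) (hι : LipschitzWith A ι)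
    (hρ : LipschitzWith B ρ) (hρι : ∀ x, ρ (ι x) = x) (o : M) (o' : N) (f : Lip0 N o') :
    comp0 ι A hι o' o (comp0 ρ B hρ o o' f) = f := by
  apply Lip0.ext
  intro x
  rw [comp0_fn, comp0_fn, comp0_fn, hρι, hρι, Lip0.fn_base f]
  ring

theorem freeMap_retract (ι : N → M) (ρ : M → N) (A B : ℝ≥0) (hι : LipschitzWith A ι)
    (hρ : LipschitzWith B ρ) (hρι : ∀ x, ρ (ι x) = x) (o : M) (o' : N) (y : free N o') :
    freeMap ρ B hρ o o' (freeMap ι A hι o' o y) = y := by
  apply Subtype.ext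
  rw [freeMap_coe, freeMap_coe]
  ext f
  rw [adj_apply, adj_apply, comp0_retract ι ρ A B hι hρ hρι o o' f]

end Vale.Agent.Lib.P090.H4
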